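import Mathlib

/-! Montel (ultrafilter form), Hurwitz (local form), nonvanishing derivative of injective
holomorphic maps, holomorphic inverses, and the minimum principle for real parts. -/

set_option autoImplicit false

open Set Filter Metric Topology Complex

namespace Crest.Agent.Riemann

/-- Maximum modulus on a closed disc. -/
theorem norm_le_of_sphere {E : Type*} [NormedAddCommGroup E] [NormedSpace ℂ E]
    {f : ℂ → E} {c : ℂ} {r C : ℝ} (hr : 0 < r)
    (hd : DiffContOnCl ℂ f (ball c r)) (hC : ∀ z ∈ sphere c r, ‖f z‖ ≤ C) {z : ℂ}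
    (hz : z ∈ closedBall c r) : ‖f z‖ ≤ C := by
  refine norm_le_of_forall_mem_frontier_norm_le isBounded_ball hd ?_ ?_
  · rwa [frontier_ball c hr.ne']
  · rwa [closure_ball c hr.ne']

theorem diffContOnCl_ball_of_subset {E : Type*} [NormedAddCommGroup E] [NormedSpace ℂ E]
    {f : ℂ → E} {c : ℂ} {r : ℝ} {V : Set ℂ} (hd : DifferentiableOn ℂ f V)
    (hV : closedBall c r ⊆ V) : DiffContOnCl ℂ f (ball c r) :=
  DifferentiableOn.diffContOnCl (hd.mono (closure_ball_subset_closedBall.trans hV))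

/-- Minimum principle for the real part on a closed disc. -/
theorem le_re_of_sphere {f : ℂ → ℂ} {c : ℂ} {r a : ℝ} (hr : 0 < r)
    (hd : DiffContOnCl ℂ f (ball c r)) (hC : ∀ z ∈ sphere c r, a ≤ (f z).re) {z : ℂ}
    (hz : z ∈ closedBall c r) : a ≤ (f z).re := by
  have h1 : DiffContOnCl ℂ (fun z => cexp (-f z)) (ball c r) :=
    differentiable_exp.comp_diffContOnCl hd.neg
  have h2 := norm_le_of_sphere (C := Real.exp (-a)) hr h1 (fun w hw => by
    rw [norm_exp, Real.exp_le_exp, neg_re]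
    linarith [hC w hw]) hz
  rw [norm_exp, Real.exp_le_exp, neg_re] at h2
  linarith

/-- Lower bound for nonvanishing functions from a lower bound on the circle. -/
theorem le_norm_of_sphere {f : ℂ → ℂ} {c : ℂ} {r a : ℝ} (hr : 0 < r) (ha : 0 < a)
    (hd : DiffContOnCl ℂ f (ball c r)) (h0 : ∀ z ∈ closedBall c r, f z ≠ 0)
    (hC : ∀ z ∈ sphere c r, a ≤ ‖f z‖) {z : ℂ} (hz : z ∈ closedBall c r) : a ≤ ‖f z‖ := by
  have h1 : DiffContOnCl ℂ (fun z => (f z)⁻¹) (ball c r) :=
    hd.inv (by rwa [closure_ball c hr.ne'])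
  have h2 := norm_le_of_sphere (C := a⁻¹) hr h1 (fun w hw => by
    rw [norm_inv]
    exact inv_anti₀ ha (hC w hw)) hz
  rw [norm_inv] at h2
  exact (inv_le_inv₀ (norm_pos_iff.2 (h0 z hz)) ha).1 h2

/-- Montel's theorem along an ultrafilter. -/
theorem montel_ultra {ι : Type*} (𝒰 : Ultrafilter ι) {F : ι → ℂ → ℂ} {U : Set ℂ}
    (hU : IsOpen U) (hd : ∀ i, DifferentiableOn ℂ (F i) U) (hb : ∀ i, ∀ z ∈ U, ‖F i z‖ ≤ 1) :
    ∃ f : ℂ → ℂ, TendstoLocallyUniformlyOn F f 𝒰 U := by
  have hlim : ∀ z ∈ U, ∃ w, Tendsto (fun i => F i z) 𝒰 (𝓝 w) := by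
    intro z hz
    obtain ⟨w, -, hw⟩ := (isCompact_closedBall (0 : ℂ) 1).ultrafilter_le_nhds
      (𝒰.map fun i => F i z) (by
        rw [Ultrafilter.coe_map, le_principal_iff, mem_map]
        exact Eventually.of_forall fun i => by simpa using hb i z hz)
    exact ⟨w, hw⟩
  choose! f hf using hlim
  refine ⟨f, Metric.tendstoLocallyUniformlyOn_iff.2 fun ε hε x hx => ?_⟩
  obtain ⟨r, hr, hrU⟩ := Metric.isOpen_iff.1 hU x hx
  have hlip : ∀ i, ∀ y ∈ ball x r, dist (F i y) (F i x) ≤ 2 / r * dist y x := by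
    intro i y hy
    refine dist_le_div_mul_dist_of_mapsTo_ball ((hd i).mono hrU) (fun w hw => ?_) hy
    rw [mem_closedBall, dist_eq_norm]
    calc ‖F i w - F i x‖ ≤ ‖F i w‖ + ‖F i x‖ := norm_sub_le _ _
      _ ≤ 2 := by linarith [hb i w (hrU hw), hb i x hx]
  have hlipf : ∀ y ∈ ball x r, dist (f y) (f x) ≤ 2 / r * dist y x := fun y hy =>
    le_of_tendsto ((hf y (hrU hy)).dist (hf x hx)) (Eventually.of_forall fun i => hlip i y hy)
  set δ := min r (ε * r / 6) with hδ
  have hδ0 : 0 < δ := lt_min hr (by positivity)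
  refine ⟨ball x δ, mem_nhdsWithin_of_mem_nhds (ball_mem_nhds x hδ0), ?_⟩
  have h3 : ∀ᶠ i in (𝒰 : Filter ι), dist (F i x) (f x) < ε / 3 :=
    Metric.tendsto_nhds.1 (hf x hx) _ (by positivity)
  filter_upwards [h3] with i hi y hy
  have hy1 : y ∈ ball x r := ball_subset_ball (min_le_left _ _) hy
  have hy2 : 2 / r * dist y x ≤ ε / 3 := by
    have : dist y x ≤ ε * r / 6 := (mem_ball.1 hy).le.trans (min_le_right _ _)
    calc 2 / r * dist y x ≤ 2 / r * (ε * r / 6) := by gcongr
      _ = ε / 3 := by field_simp; ring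
  calc dist (f y) (F i y) ≤ dist (f y) (f x) + dist (f x) (F i x) + dist (F i x) (F i y) :=
        dist_triangle4 _ _ _ _
    _ < ε := by
        have := hlipf y hy1
        have := hlip i y hy1
        rw [dist_comm (f x), dist_comm (F i x) (F i y)]
        linarith

/-- A small circle around an isolated zero. -/
theorem exists_sphere_lower {g : ℂ → ℂ} {V : Set ℂ} (hV : IsOpen V) {b : ℂ} (hb : b ∈ V)
    (hg : ContinuousOn g V) (h : ∀ᶠ z in 𝓝[≠] b, g z ≠ 0) :
    ∃ r > 0, closedBall b r ⊆ V ∧ ∃ δ > 0, ∀ z ∈ sphere b r, δ ≤ ‖g z‖ := by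
  rw [eventually_nhdsWithin_iff] at h
  obtain ⟨r, hr, hrV⟩ := Metric.nhds_basis_closedBall.mem_iff.1 (inter_mem (hV.mem_nhds hb) h)
  refine ⟨r, hr, fun z hz => (hrV hz).1, ?_⟩
  have hs : (sphere b r).Nonempty := NormedSpace.sphere_nonempty.2 hr.le
  obtain ⟨z, hz, hmin⟩ := (isCompact_sphere b r).exists_isMinOn hs
    ((hg.mono fun w hw => (hrV (sphere_subset_closedBall hw)).1).norm)
  refine ⟨‖g z‖, norm_pos_iff.2 ((hrV (sphere_subset_closedBall hz)).2 ?_), fun w hw => hmin hw⟩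
  rintro rfl
  simp [hr.ne] at hz

/-- Hurwitz's theorem, local form. -/
theorem hurwitz_local {ι : Type*} {l : Filter ι} [l.NeBot] {F : ι → ℂ → ℂ} {g : ℂ → ℂ}
    {V : Set ℂ} (hV : IsOpen V) (hF : TendstoLocallyUniformlyOn F g l V)
    (hd : ∀ i, DifferentiableOn ℂ (F i) V) (h0 : ∀ i, ∀ z ∈ V, F i z ≠ 0) {b : ℂ} (hb : b ∈ V)
    (hne : ¬ ∀ᶠ z in 𝓝 b, g z = 0) : g b ≠ 0 := by
  have hg : DifferentiableOn ℂ g V := hF.differentiableOn (Eventually.of_forall hd) hV
  have han : AnalyticAt ℂ g b := hg.analyticAt (hV.mem_nhds hb)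
  obtain ⟨r, hr, hrV, δ, hδ, hδg⟩ := exists_sphere_lower hV hb hg.continuousOn
    (han.eventually_eq_zero_or_eventually_ne_zero.resolve_left hne)
  have hu : TendstoUniformlyOn F g l (closedBall b r) :=
    (tendstoLocallyUniformlyOn_iff_forall_isCompact hV).1 hF _ hrV (isCompact_closedBall _ _)
  obtain ⟨i, hi⟩ := (Metric.tendstoUniformlyOn_iff.1 hu (δ / 2) (by positivity)).exists
  have h1 : δ / 2 ≤ ‖F i b‖ := by
    refine le_norm_of_sphere hr (by positivity) (diffContOnCl_ball_of_subset (hd i) hrV)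
      (fun z hz => h0 i z (hrV hz)) (fun z hz => ?_) (mem_closedBall_self hr.le)
    have h2 := hi z (sphere_subset_closedBall hz)
    have h3 := hδg z hz
    rw [dist_eq_norm] at h2
    have := norm_sub_norm_le (g z) (F i z)
    linarith
  intro hgb
  have h2 := hi b (mem_closedBall_self hr.le)
  rw [hgb, dist_zero_left] at h2
  linarith

/-- An injective holomorphic function has nonvanishing derivative. -/
theorem deriv_ne_zero_of_injOn {f : ℂ → ℂ} {V : Set ℂ} (hV : IsOpen V)
    (hd : DifferentiableOn ℂ f V) (hi : InjOn f V) {a : ℂ} (ha : a ∈ V) : deriv f a ≠ 0 := by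
  have hVa := hV.mem_nhds ha
  have han : AnalyticAt ℂ f a := hd.analyticAt hVa
  have hne : ∀ᶠ z in 𝓝[≠] a, f z - f a ≠ 0 := by
    filter_upwards [mem_nhdsWithin_of_mem_nhds hVa, self_mem_nhdsWithin] with z hz hza
    exact fun h => hza (hi hz ha (sub_eq_zero.1 h))
  obtain ⟨r, hr, hrV, δ, hδ, hδg⟩ := exists_sphere_lower (g := fun z => f z - f a) hV ha
    (hd.continuousOn.sub continuousOn_const) hne
  -- the derivative is not locally zero
  have hder : ∀ᶠ z in 𝓝[≠] a, deriv f z ≠ 0 := by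
    refine han.deriv.eventually_eq_zero_or_eventually_ne_zero.resolve_left fun h => ?_
    obtain ⟨s, hs, hsV⟩ := Metric.nhds_basis_ball.mem_iff.1 (inter_mem hVa h)
    have hconst : ∀ z ∈ ball a s, f z = f a := fun z hz =>
      isOpen_ball.is_const_of_deriv_eq_zero (convex_ball a s).isPreconnected
        (hd.mono fun w hw => (hsV hw).1) (fun w hw => (hsV hw).2) hz (mem_ball_self hs)
    obtain ⟨z, hz1, hz2⟩ := (hne.and (mem_nhdsWithin_of_mem_nhds (ball_mem_nhds a hs))).exists
    exact hz1 (sub_eq_zero.2 (hconst z hz2))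
  have hsmall : ∀ᶠ w in 𝓝 a, ‖f w - f a‖ < δ / 2 := by
    have := han.continuousAt.tendsto
    simpa [dist_eq_norm] using Metric.tendsto_nhds.1 this (δ / 2) (by positivity)
  have hlow : ∀ᶠ w in 𝓝[≠] a, δ / (4 * r) ≤ ‖deriv f w‖ := by
    filter_upwards [hder, mem_nhdsWithin_of_mem_nhds hsmall,
      mem_nhdsWithin_of_mem_nhds (ball_mem_nhds a hr)] with w hw1 hw2 hw3
    have hwV : w ∈ V := hrV (ball_subset_closedBall hw3)
    have hds : DifferentiableOn ℂ (dslope f w) V := (differentiableOn_dslope (hV.mem_nhds hwV)).2 hd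
    rw [← dslope_same]
    refine le_norm_of_sphere hr (by positivity) (diffContOnCl_ball_of_subset hds hrV)
      (fun z hz => ?_) (fun z hz => ?_) (ball_subset_closedBall hw3)
    · rcases eq_or_ne z w with rfl | hzw
      · rwa [dslope_same]
      · rw [dslope_of_ne _ hzw, slope_def_field]
        exact div_ne_zero (fun h => hzw (hi (hrV hz) hwV (sub_eq_zero.1 h))) (sub_ne_zero.2 hzw)
    · have hzw : z ≠ w := by
        rintro rfl
        rw [mem_sphere] at hz
        rw [mem_ball] at hw3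
        linarith
      rw [dslope_of_ne _ hzw, slope_def_field, norm_div]
      have h1 : δ / 2 ≤ ‖f z - f w‖ := by
        have h2 := hδg z hz
        have h3 := norm_sub_norm_le (f z - f a) (f w - f a)
        rw [sub_sub_sub_cancel_right] at h3
        linarith
      have h2 : ‖z - w‖ ≤ 2 * r := by
        have h3 := norm_sub_le (z - a) (w - a)
        rw [sub_sub_sub_cancel_right] at h3
        rw [mem_sphere, dist_eq_norm] at hz
        rw [mem_ball, dist_eq_norm] at hw3
        linarith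
      calc δ / (4 * r) = (δ / 2) / (2 * r) := by field_simp; ring
        _ ≤ ‖f z - f w‖ / ‖z - w‖ := by
          gcongr
          exact norm_pos_iff.2 (sub_ne_zero.2 hzw)
  have hlim : δ / (4 * r) ≤ ‖deriv f a‖ :=
    ge_of_tendsto (han.deriv.continuousAt.norm.tendsto.mono_left nhdsWithin_le_nhds) hlow
  exact norm_pos_iff.1 (lt_of_lt_of_le (by positivity) hlim)

/-- The inverse of an injective holomorphic function is holomorphic. -/
theorem hasDerivAt_leftInv {f g : ℂ → ℂ} {V : Set ℂ} (hV : IsOpen V)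
    (hd : DifferentiableOn ℂ f V) (hg : ∀ z ∈ V, g (f z) = z) {a : ℂ} (ha : a ∈ V) :
    HasDerivAt g (deriv f a)⁻¹ (f a) := by
  have hi : InjOn f V := fun x hx y hy h => by rw [← hg x hx, h, hg y hy]
  have h1 : HasStrictDerivAt f (deriv f a) a :=
    (hd.analyticAt (hV.mem_nhds ha)).hasStrictDerivAt
  exact (h1.to_local_left_inverse (deriv_ne_zero_of_injOn hV hd hi ha)
    (by filter_upwards [hV.mem_nhds ha] with x hx using hg x hx)).hasDerivAt

end Crest.Agent.Riemann
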