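import Crest.Agent.Lib.Riemann.Basic

/-! The Riemann mapping theorem for bounded simply connected domains. -/

set_option autoImplicit false

open Set Filter Metric Topology Complex

namespace Crest.Agent.Riemann

/-- Disc automorphism `w ↦ (w - a) / (1 - conj a * w)`. -/
noncomputable def mob (a w : ℂ) : ℂ := (w - a) / (1 - (starRingEnd ℂ) a * w)

theorem mob_den_ne {a w : ℂ} (ha : ‖a‖ < 1) (hw : ‖w‖ < 1) : 1 - (starRingEnd ℂ) a * w ≠ 0 := by
  intro h
  have h1 : (starRingEnd ℂ) a * w = 1 := by linear_combination -h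
  have h2 := congrArg norm h1
  rw [norm_mul, RCLike.norm_conj, norm_one] at h2
  nlinarith [norm_nonneg a, norm_nonneg w]

theorem norm_mob_lt {a w : ℂ} (ha : ‖a‖ < 1) (hw : ‖w‖ < 1) : ‖mob a w‖ < 1 := by
  rw [mob, norm_div, div_lt_one (norm_pos_iff.2 (mob_den_ne ha hw))]
  rw [← sq_lt_sq₀ (norm_nonneg _) (norm_nonneg _), Complex.sq_norm, Complex.sq_norm]
  have h1 : normSq a < 1 := by rw [← Complex.sq_norm]; nlinarith [norm_nonneg a]
  have h2 : normSq w < 1 := by rw [← Complex.sq_norm]; nlinarith [norm_nonneg w]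
  have h3 : normSq (1 - (starRingEnd ℂ) a * w) - normSq (w - a)
      = (1 - normSq a) * (1 - normSq w) := by
    simp [normSq_apply]; ring
  nlinarith [mul_pos (sub_pos.2 h1) (sub_pos.2 h2)]

theorem one_sub_conj_mul_ne {a : ℂ} (ha : ‖a‖ < 1) : 1 - (starRingEnd ℂ) a * a ≠ 0 :=
  mob_den_ne ha ha

theorem mob_inj {a w w' : ℂ} (ha : ‖a‖ < 1) (hw : ‖w‖ < 1) (hw' : ‖w'‖ < 1)
    (h : mob a w = mob a w') : w = w' := by
  rw [mob, mob, div_eq_div_iff (mob_den_ne ha hw) (mob_den_ne ha hw')] at h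
  have : (w - w') * (1 - (starRingEnd ℂ) a * a) = 0 := by linear_combination h
  exact sub_eq_zero.1 ((mul_eq_zero.1 this).resolve_right (one_sub_conj_mul_ne ha))

theorem hasDerivAt_mob {a w : ℂ} (ha : ‖a‖ < 1) (hw : ‖w‖ < 1) :
    HasDerivAt (mob a) ((1 - (starRingEnd ℂ) a * a) / (1 - (starRingEnd ℂ) a * w) ^ 2) w := by
  have h := ((hasDerivAt_id w).sub_const a).fun_div
    (((hasDerivAt_id w).const_mul ((starRingEnd ℂ) a)).const_sub 1) (mob_den_ne ha hw)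
  refine HasDerivAt.congr_deriv h ?_
  simp only [id]
  congr 1
  ring

/-- The family used in the proof of the Riemann mapping theorem. -/
def Fam (U : Set ℂ) (z₀ : ℂ) (f : ℂ → ℂ) : Prop :=
  DifferentiableOn ℂ f U ∧ InjOn f U ∧ MapsTo f U (ball 0 1) ∧ f z₀ = 0

/-- Koebe's square-root trick. -/
theorem koebe {U : Set ℂ} (hU : IsOpen U) (hc : IsSimplyConnected U) {z₀ : ℂ} (hz₀ : z₀ ∈ U)
    {f : ℂ → ℂ} (hf : Fam U z₀ f) {a : ℂ} (ha : ‖a‖ < 1) (haf : a ∉ f '' U) :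
    ∃ h, Fam U z₀ h ∧ ‖deriv f z₀‖ < ‖deriv h z₀‖ := by
  obtain ⟨hd, hi, hm, h0⟩ := hf
  have hm' : ∀ z ∈ U, ‖f z‖ < 1 := fun z hz => by simpa using hm hz
  have hF : ∀ z ∈ U, HasDerivAt (fun z => mob a (f z))
      ((1 - (starRingEnd ℂ) a * a) / (1 - (starRingEnd ℂ) a * f z) ^ 2 * deriv f z) z :=
    fun z hz => (hasDerivAt_mob ha (hm' z hz)).comp z
      (hd.differentiableAt (hU.mem_nhds hz)).hasDerivAt
  have hF0 : ∀ z ∈ U, mob a (f z) ≠ 0 := fun z hz h => by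
    rw [mob, div_eq_zero_iff] at h
    rcases h with h | h
    · exact haf ⟨z, hz, sub_eq_zero.1 h⟩
    · exact mob_den_ne ha (hm' z hz) h
  obtain ⟨g, hgc, hg⟩ := exists_continuousOn_pow_eq (g := fun z => mob a (f z)) hc hU
    (fun z hz => (hF z hz).continuousAt.continuousWithinAt)
    (by rintro ⟨z, hz, h⟩; exact hF0 z hz h) two_ne_zero
  have hg0 : ∀ z ∈ U, g z ≠ 0 := fun z hz h => hF0 z hz (by rw [← hg z, h]; simp)
  have hg1 : ∀ z ∈ U, ‖g z‖ < 1 := fun z hz => by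
    have := norm_mob_lt ha (hm' z hz)
    rw [← hg z, norm_pow] at this
    nlinarith [norm_nonneg (g z)]
  have hgd : ∀ z ∈ U, HasDerivAt g
      (((1 - (starRingEnd ℂ) a * a) / (1 - (starRingEnd ℂ) a * f z) ^ 2 * deriv f z)
        / (2 * g z)) z := by
    intro z hz
    refine HasDerivAt.of_comp_left (f := fun w => w ^ 2) (hgc.continuousAt (hU.mem_nhds hz))
      (by simpa using hasDerivAt_pow 2 (g z)) (hF z hz) (by simpa using hg0 z hz) ?_
    exact Eventually.of_forall fun x => hg x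
  set b := g z₀ with hb
  have hb1 : ‖b‖ < 1 := hg1 z₀ hz₀
  have hb0 : b ≠ 0 := hg0 z₀ hz₀
  have hba : b ^ 2 = -a := by rw [hb, hg z₀, h0, mob]; simp
  have hH : ∀ z ∈ U, HasDerivAt (fun z => mob b (g z)) _ z :=
    fun z hz => (hasDerivAt_mob hb1 (hg1 z hz)).comp z (hgd z hz)
  refine ⟨fun z => mob b (g z), ⟨fun z hz => (hH z hz).differentiableAt.differentiableWithinAt,
    fun z hz w hw h => ?_, fun z hz => by simpa using norm_mob_lt hb1 (hg1 z hz), by simp [mob, hb]⟩,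
    ?_⟩
  · have h1 := mob_inj hb1 (hg1 z hz) (hg1 w hw) h
    have h2 : mob a (f z) = mob a (f w) := by rw [← hg z, ← hg w, h1]
    exact hi hz hw (mob_inj ha (hm' z hz) (hm' w hw) h2)
  · rw [(hH z₀ hz₀).deriv, ← hb, h0]
    have hd0 : 0 < ‖deriv f z₀‖ := norm_pos_iff.2 (deriv_ne_zero_of_injOn hU hd hi hz₀)
    have hbb : (starRingEnd ℂ) b * b = ((‖b‖ ^ 2 : ℝ) : ℂ) := by
      rw [Complex.conj_mul']; push_cast; ring
    have haa : (starRingEnd ℂ) a * a = ((‖b‖ ^ 4 : ℝ) : ℂ) := by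
      have : ‖a‖ = ‖b‖ ^ 2 := by rw [← norm_neg, ← hba, norm_pow]
      rw [Complex.conj_mul', this]; push_cast; ring
    have hbp : 0 < ‖b‖ := norm_pos_iff.2 hb0
    have h2 : 0 < 1 - ‖b‖ ^ 2 := by nlinarith
    have h4 : 0 < 1 - ‖b‖ ^ 4 := by nlinarith
    rw [hbb, haa]
    have e1 : (1 : ℂ) - ((‖b‖ ^ 2 : ℝ) : ℂ) = ((1 - ‖b‖ ^ 2 : ℝ) : ℂ) := by push_cast; ring
    have e2 : (1 : ℂ) - ((‖b‖ ^ 4 : ℝ) : ℂ) = ((1 - ‖b‖ ^ 4 : ℝ) : ℂ) := by push_cast; ring
    rw [e1, e2]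
    simp only [norm_mul, norm_div, norm_pow, Complex.norm_real, Real.norm_eq_abs, abs_of_pos h2,
      abs_of_pos h4, mul_zero, sub_zero, one_pow, div_one, Complex.norm_ofNat]
    have e3 : (1 - ‖b‖ ^ 2) / (1 - ‖b‖ ^ 2) ^ 2 * ((1 - ‖b‖ ^ 4) * ‖deriv f z₀‖ / (2 * ‖b‖))
        = (1 + ‖b‖ ^ 2) / (2 * ‖b‖) * ‖deriv f z₀‖ := by
      field_simp; ring
    rw [e3]
    have e4 : 1 < (1 + ‖b‖ ^ 2) / (2 * ‖b‖) := by
      rw [lt_div_iff₀ (by positivity)]; nlinarith
    nlinarith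

/-- Existence of an extremal member of the family. -/
theorem exists_extremal {U : Set ℂ} (hU : IsOpen U) (hc : IsPreconnected U) {z₀ : ℂ}
    (hz₀ : z₀ ∈ U) {f₀ : ℂ → ℂ} (hf₀ : Fam U z₀ f₀) :
    ∃ f, Fam U z₀ f ∧ ∀ h, Fam U z₀ h → ‖deriv h z₀‖ ≤ ‖deriv f z₀‖ := by
  obtain ⟨r, hr, hrU⟩ := Metric.isOpen_iff.1 hU z₀ hz₀
  set S : Set ℝ := {t | ∃ h, Fam U z₀ h ∧ t = ‖deriv h z₀‖} with hS
  have hne : S.Nonempty := ⟨_, f₀, hf₀, rfl⟩
  have hbdd : BddAbove S := by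
    refine ⟨1 / r, ?_⟩
    rintro _ ⟨h, hh, rfl⟩
    refine norm_deriv_le_div_of_mapsTo_ball (hh.1.mono hrU) (fun w hw => ?_) hr
    rw [hh.2.2.2]
    exact ball_subset_closedBall (hh.2.2.1 (hrU hw))
  obtain ⟨u, -, hu, huS⟩ := exists_seq_tendsto_sSup hne hbdd
  choose F hF hFu using huS
  obtain ⟨f, hf⟩ := montel_ultra (Filter.hyperfilter ℕ) hU (fun i => (hF i).1)
    (fun i z hz => by simpa using ball_subset_closedBall ((hF i).2.2.1 hz))
  have hle : (Filter.hyperfilter ℕ : Filter ℕ) ≤ atTop := by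
    rw [← Nat.cofinite_eq_atTop]; exact hyperfilter_le_cofinite
  have hd : DifferentiableOn ℂ f U :=
    hf.differentiableOn (Eventually.of_forall fun i => (hF i).1) hU
  have hder : ‖deriv f z₀‖ = sSup S := by
    have h1 := ((hf.deriv (Eventually.of_forall fun i => (hF i).1) hU).tendsto_at hz₀).norm
    refine tendsto_nhds_unique h1 ?_
    have h2 := hu.mono_left hle
    refine h2.congr fun i => ?_
    simp [hFu i]
  have hmax : ∀ h, Fam U z₀ h → ‖deriv h z₀‖ ≤ ‖deriv f z₀‖ := fun h hh => by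
    rw [hder]; exact le_csSup hbdd ⟨h, hh, rfl⟩
  have hpos : deriv f z₀ ≠ 0 := by
    have := hmax f₀ hf₀
    have h2 := norm_pos_iff.2 (deriv_ne_zero_of_injOn hU hf₀.1 hf₀.2.1 hz₀)
    exact norm_pos_iff.1 (h2.trans_le this)
  have han : AnalyticOnNhd ℂ f U := hd.analyticOnNhd hU
  -- `f` is nowhere locally constant
  have hnc : ∀ b ∈ U, ∀ c : ℂ, ¬ ∀ᶠ z in 𝓝 b, f z - c = 0 := by
    intro b hb c h
    have h1 : EqOn (fun z => f z - c) 0 U :=
      (han.sub analyticOnNhd_const).eqOn_zero_of_preconnected_of_eventuallyEq_zero hc hb h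
    have h2 : f =ᶠ[𝓝 z₀] fun _ => c := by
      filter_upwards [hU.mem_nhds hz₀] with z hz using sub_eq_zero.1 (h1 hz)
    exact hpos (by rw [h2.deriv_eq]; simp)
  have hf0 : f z₀ = 0 := by
    refine tendsto_nhds_unique (hf.tendsto_at hz₀) ?_
    simp [(hF _).2.2.2]
  refine ⟨f, ⟨hd, fun a ha b hb hab => ?_, fun z hz => ?_, hf0⟩, hmax⟩
  · by_contra hne
    have hV : IsOpen (U \ {a}) := hU.sdiff isClosed_singleton
    have h1 : TendstoLocallyUniformlyOn (fun i z => F i z - F i a) (fun z => f z - f a)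
        (Filter.hyperfilter ℕ) (U \ {a}) := by
      refine (hf.mono sdiff_subset).sub ?_
      exact ((hf.tendsto_at ha).tendstoUniformlyOn_const _).tendstoLocallyUniformlyOn
    refine hurwitz_local hV h1 (fun i => ((hF i).1.mono sdiff_subset).sub_const _)
      (fun i z hz h => hz.2 ((hF i).2.1 hz.1 ha (sub_eq_zero.1 h))) (b := b)
      ⟨hb, fun h => hne (Eq.symm h)⟩ (hnc b hb _) ?_
    simp [hab]
  · have hle1 : ∀ w ∈ U, ‖f w‖ ≤ 1 := fun w hw =>
      le_of_tendsto (hf.tendsto_at hw).norm (Eventually.of_forall fun i => by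
        simpa using ball_subset_closedBall ((hF i).2.2.1 hw))
    rw [mem_ball_zero_iff]
    refine lt_of_le_of_ne (hle1 z hz) fun h => ?_
    have hmax' : IsLocalMax (norm ∘ f) z := by
      filter_upwards [hU.mem_nhds hz] with w hw
      simpa [h] using hle1 w hw
    have := eventually_eq_of_isLocalMax_norm
      (by filter_upwards [hU.mem_nhds hz] with w hw using hd.differentiableAt (hU.mem_nhds hw))
      hmax'
    exact hnc z hz (f z) (this.mono fun w hw => sub_eq_zero.2 hw)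

/-- **Riemann mapping theorem** for a bounded simply connected open set. -/
theorem riemann_mapping {U : Set ℂ} (hU : IsOpen U) (hc : IsSimplyConnected U)
    (hb : Bornology.IsBounded U) {z₀ : ℂ} (hz₀ : z₀ ∈ U) :
    ∃ φ ψ : ℂ → ℂ, DifferentiableOn ℂ φ U ∧ DifferentiableOn ℂ ψ (ball 0 1) ∧
      MapsTo φ U (ball 0 1) ∧ MapsTo ψ (ball 0 1) U ∧ (∀ z ∈ U, ψ (φ z) = z) ∧
      (∀ w ∈ ball (0 : ℂ) 1, φ (ψ w) = w) ∧ φ z₀ = 0 := by
  obtain ⟨R, hR, hUR⟩ := hb.subset_ball_lt 0 z₀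
  have hf₀ : Fam U z₀ (fun z => (z - z₀) / R) := by
    have hR' : (R : ℂ) ≠ 0 := by exact_mod_cast hR.ne'
    refine ⟨by fun_prop, fun z _ w _ h => ?_, fun z hz => ?_, by simp⟩
    · simpa [hR', div_left_inj'] using h
    · have := hUR hz
      rw [mem_ball, dist_eq_norm] at this
      rw [mem_ball_zero_iff, norm_div, Complex.norm_real, Real.norm_of_nonneg hR.le,
        div_lt_one hR]
      exact this
  have hpc : IsPreconnected U := by
    have := hc.simplyConnectedSpace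
    exact isPreconnected_iff_preconnectedSpace.2 inferInstance
  obtain ⟨f, hf, hmax⟩ := exists_extremal hU hpc hz₀ hf₀
  have hsurj : ∀ a ∈ ball (0 : ℂ) 1, a ∈ f '' U := by
    intro a ha
    by_contra haf
    obtain ⟨h, hh, hlt⟩ := koebe hU hc hz₀ hf (by simpa using ha) haf
    exact (hmax h hh).not_gt hlt
  have hl : ∀ z ∈ U, Function.invFunOn f U (f z) = z := fun z hz => hf.2.1.leftInvOn_invFunOn hz
  refine ⟨f, Function.invFunOn f U, hf.1, fun w hw => ?_, hf.2.2.1, fun w hw => ?_, hl,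
    fun w hw => ?_, hf.2.2.2⟩
  · obtain ⟨z, hz, rfl⟩ := hsurj w hw
    exact (hasDerivAt_leftInv hU hf.1 hl hz).differentiableAt.differentiableWithinAt
  · exact Function.invFunOn_mem (hsurj w hw)
  · exact Function.invFunOn_eq (hsurj w hw)

end Crest.Agent.Riemann
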